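import Vale.Agent.P345.Encode.System

/-!
# P345 Encode: the solutions of the system are the halting histories
-/

namespace Vale.Agent.P345.Encode

open Finset

theorem sub_two_pow_sub_one {x H : ℕ} (hx : x < 2 ^ H) : Sub x (2 ^ H - 1) := by
  intro i hi
  rw [Nat.testBit_two_pow_sub_one, decide_eq_true_eq]
  by_contra hle
  rw [Nat.testBit_lt_two_pow (hx.trans_le (Nat.pow_le_pow_right (by norm_num) (not_lt.1 hle)))]
    at hi
  exact Bool.false_ne_true hi

theorem two_pow_sub {y H : ℕ} (h1 : 2 ^ H ≤ y) (h2 : y < 2 ^ (H + 1)) : Sub (2 ^ H) y := by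
  intro i hi
  rw [Nat.testBit_two_pow, decide_eq_true_eq] at hi
  subst hi
  rw [Nat.testBit_eq_decide_div_mod_eq, decide_eq_true_eq]
  have h0 := Nat.two_pow_pos H
  have : y / 2 ^ H = 1 := Nat.div_eq_of_lt_le (by omega) (by rw [pow_succ] at h2; omega)
  rw [this]

theorem sub_pack_mono {k T : ℕ} {f g : ℕ → ℕ} (hg : ∀ t < T, g t < 2 ^ k)
    (h : ∀ t < T, Sub (f t) (g t)) : Sub (pack (2 ^ k) T f) (pack (2 ^ k) T g) :=
  (sub_pack hg).2 ⟨f, h, rfl⟩

theorem sub_pack_digits {k T : ℕ} {f g : ℕ → ℕ} (hf : ∀ t < T, f t < 2 ^ k)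
    (hg : ∀ t < T, g t < 2 ^ k) (h : Sub (pack (2 ^ k) T f) (pack (2 ^ k) T g)) :
    ∀ t < T, Sub (f t) (g t) := by
  obtain ⟨u, hu, he⟩ := (sub_pack hg).1 h
  intro t ht
  rw [pack_inj hf (fun t ht => (hu t ht).le.trans_lt (hg t ht)) he t ht]
  exact hu t ht

/-- The shift equation of the column of a sequence. -/
theorem shift_seq {B T : ℕ} (g u d : ℕ → ℕ) (i : ℕ) (hu : ∀ t < T, u t < B)
    (hgd : ∀ t, t + 1 < T → g (t + 1) + d t < B) (hi : i < B) (h0 : 0 < T → g 0 < B) :
    B * pack B T u + i = B * pack B T d + pack B T g + g T * B ^ T ↔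
      g 0 = i ∧ ∀ t < T, g (t + 1) + d t = u t := by
  have h := shift_iff T g u d i 0 (g T) hu hgd hi (fun h => by simpa using h0 h)
  rw [add_zero, add_zero] at h
  rw [h]
  have e0 : (if 0 < T then g 0 else g T) = g 0 := by
    split_ifs with h1
    · rfl
    · rw [show T = 0 by omega]
  have e1 : ∀ t < T, (if t + 1 < T then g (t + 1) else g T) = g (t + 1) := by
    intro t ht
    split_ifs with h1
    · rfl
    · rw [show t + 1 = T by omega]
  rw [e0]
  exact and_congr_right fun _ => forall₂_congr fun t ht => by rw [e1 t ht]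

variable {n : ℕ} (P : Program n)

theorem ind_inj {c d : Lab P} (h : ∀ l, ind P c l = ind P d l) : c = d := by
  have := h c
  unfold ind at this
  by_contra hne
  simp [Ne.symm hne] at this

theorem sum_ind (c : Lab P) : ∑ l, ind P c l = 1 := by simp [ind]

theorem eq_ind {f : Lab P → ℕ} (h : ∑ l, f l = 1) : ∃ c, ∀ l, f l = ind P c l := by
  obtain ⟨c, hc⟩ : ∃ c, f c ≠ 0 := by
    by_contra hne
    push Not at hne
    simp [hne] at h
  have hle : f c ≤ 1 := h ▸ single_le_sum (fun l _ => Nat.zero_le (f l)) (mem_univ c)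
  refine ⟨c, fun l => ?_⟩
  unfold ind
  split_ifs with hl
  · subst hl; omega
  · have h2 : f c + f l ≤ 1 := by
      rw [← h, ← sum_pair hl]
      exact sum_le_sum_of_subset (subset_univ _)
    omega

theorem initR_le (a : Fin n → ℕ) (r : Reg P) : initR P a r ≤ ∑ i, a i := by
  refine Fin.addCases (fun i => ?_) (fun i => ?_) r <;> simp only [initR, Fin.append_left,
    Fin.append_right]
  · exact single_le_sum (fun j _ => Nat.zero_le (a j)) (mem_univ i)
  · simp

theorem run_succ (a : Fin n → ℕ) (t : ℕ) : P.run a (t + 1) = P.step (P.run a t) :=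
  Function.iterate_succ_apply' P.step t (P.init a)

theorem run_le (a : Fin n → ℕ) (t : ℕ) (r : Reg P) : (P.run a t).2 r ≤ (∑ i, a i) + t := by
  induction t with
  | zero => exact initR_le P a r
  | succ t ih =>
    have h := reg_step P (P.run a t) r
    have h1 := incR_ind_le_one P (P.run a t).1 r
    rw [run_succ]
    omega

/-- The shift equations say that the digits follow the machine. -/
theorem flow_iff {H : ℕ} (a : Fin n → ℕ) (T : ℕ) (c : ℕ → P.Config)
    (ha : ∀ r, initR P a r < 2 ^ H) (hx : ∀ t < T, ∀ r, (c t).2 r < 2 ^ H)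
    (hnh : ∀ t < T, P.code (c t).1 ≠ .halt) :
    ((∀ l, 2 ^ (H + 1) * inL P (fun k => pack (2 ^ (H + 1)) T fun t => ind P (c t).1 k)
          (fun k => pack (2 ^ (H + 1)) T fun t => ipOf P (c t) k)
          (fun k => pack (2 ^ (H + 1)) T fun t => izOf P (c t) k) l + ind P P.start l =
        pack (2 ^ (H + 1)) T (fun t => ind P (c t).1 l) +
          ind P (c T).1 l * (2 ^ (H + 1)) ^ T) ∧
      ∀ r, 2 ^ (H + 1) * (pack (2 ^ (H + 1)) T (fun t => (c t).2 r) +
            incR P (fun k => pack (2 ^ (H + 1)) T fun t => ind P (c t).1 k) r) + initR P a r =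
          2 ^ (H + 1) * decR P (fun k => pack (2 ^ (H + 1)) T fun t => ipOf P (c t) k) r +
            pack (2 ^ (H + 1)) T (fun t => (c t).2 r) + (c T).2 r * (2 ^ (H + 1)) ^ T) ↔
      c 0 = P.init a ∧ ∀ t < T, c (t + 1) = P.step (c t) := by
  have hB : 2 ^ (H + 1) = 2 * 2 ^ H := pow_succ' 2 H
  have h1 := Nat.two_pow_pos H
  have hl : ∀ l, (2 ^ (H + 1) * inL P (fun k => pack (2 ^ (H + 1)) T fun t => ind P (c t).1 k)
          (fun k => pack (2 ^ (H + 1)) T fun t => ipOf P (c t) k)
          (fun k => pack (2 ^ (H + 1)) T fun t => izOf P (c t) k) l + ind P P.start l =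
        pack (2 ^ (H + 1)) T (fun t => ind P (c t).1 l) +
          ind P (c T).1 l * (2 ^ (H + 1)) ^ T) ↔
      ind P (c 0).1 l = ind P P.start l ∧
        ∀ t < T, ind P (c (t + 1)).1 l = ind P (P.step (c t)).1 l := by
    intro l
    have hs := shift_seq (B := 2 ^ (H + 1)) (T := T) (fun t => ind P (c t).1 l)
      (fun t => inL P (ind P (c t).1) (ipOf P (c t)) (izOf P (c t)) l) (fun _ => 0)
      (ind P P.start l)
      (fun t ht => by
        have := ind_le_one P (P.step (c t)).1 l
        simp only [inL_step P (c t) (hnh t ht) l]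
        omega)
      (fun t _ => by have := ind_le_one P (c (t + 1)).1 l; omega)
      (by have := ind_le_one P P.start l; omega)
      (fun _ => by have := ind_le_one P (c 0).1 l; omega)
    rw [pack_const_zero, mul_zero, zero_add] at hs
    rw [← pack_inL, hs]
    exact and_congr_right fun _ => forall₂_congr fun t ht => by
      rw [inL_step P (c t) (hnh t ht), add_zero]
  have hr : ∀ r, (2 ^ (H + 1) * (pack (2 ^ (H + 1)) T (fun t => (c t).2 r) +
            incR P (fun k => pack (2 ^ (H + 1)) T fun t => ind P (c t).1 k) r) + initR P a r =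
          2 ^ (H + 1) * decR P (fun k => pack (2 ^ (H + 1)) T fun t => ipOf P (c t) k) r +
            pack (2 ^ (H + 1)) T (fun t => (c t).2 r) + (c T).2 r * (2 ^ (H + 1)) ^ T) ↔
      (c 0).2 r = initR P a r ∧ ∀ t < T, (c (t + 1)).2 r = (P.step (c t)).2 r := by
    intro r
    have hs := shift_seq (B := 2 ^ (H + 1)) (T := T) (fun t => (c t).2 r)
      (fun t => (c t).2 r + incR P (ind P (c t).1) r) (fun t => decR P (ipOf P (c t)) r)
      (initR P a r)
      (fun t ht => by
        have := incR_ind_le_one P (c t).1 r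
        have := hx t ht r
        omega)
      (fun t ht => by
        have := decR_ipOf_le_one P (c t) r
        have := hx (t + 1) ht r
        omega)
      (by have := ha r; omega) (fun h => by have := hx 0 h r; omega)
    rw [pack_add] at hs
    rw [← pack_incR, ← pack_decR, hs]
    refine and_congr_right fun _ => forall₂_congr fun t ht => ?_
    have := reg_step P (c t) r
    omega
  rw [forall_congr' hl, forall_congr' hr]
  constructor
  · rintro ⟨hL, hR⟩
    exact ⟨Prod.ext (ind_inj P fun l => (hL l).1) (funext fun r => (hR r).1),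
      fun t ht => Prod.ext (ind_inj P fun l => (hL l).2 t ht) (funext fun r => (hR r).2 t ht)⟩
  · rintro ⟨h0, hs⟩
    exact ⟨fun l => ⟨by rw [h0]; rfl, fun t ht => by rw [hs t ht]⟩,
      fun r => ⟨by rw [h0]; rfl, fun t ht => by rw [hs t ht]⟩⟩

theorem can_congr (a : Fin n → ℕ) {T : ℕ} {c d : ℕ → P.Config} (h : ∀ t ≤ T, c t = d t) :
    can P a T c = can P a T d := by
  funext x
  have hT := h T le_rfl
  cases x <;> simp only [can, hT] <;>
    exact pack_congr fun t ht => by rw [h t ht.le]

theorem bound_lt (a : Fin n → ℕ) (T : ℕ) {x : ℕ} (hx : x ≤ (∑ i, a i) + T) :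
    x < 2 ^ size P a T :=
  lt_of_le_of_lt (by unfold size; omega) Nat.lt_two_pow_self

theorem complete {a : Fin n → ℕ} {T : ℕ} (h : P.HaltsAt a T) :
    Sys P a (can P a T (P.run a)) := by
  have hx : ∀ t < T, ∀ r, (P.run a t).2 r < 2 ^ size P a T := fun t ht r =>
    bound_lt P a T ((run_le P a t r).trans (by omega))
  have hfl := (flow_iff (H := size P a T) P a T (P.run a)
    (fun r => bound_lt P a T ((initR_le P a r).trans (by omega))) hx h.2).2
    ⟨rfl, fun t _ => run_succ P a t⟩
  have hB : 2 ^ (size P a T + 1) = 2 * 2 ^ size P a T := pow_succ' 2 (size P a T)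
  have hH := Nat.two_pow_pos (size P a T)
  have hone : ∀ f : ℕ → ℕ, (∀ t, f t ≤ 1) → ∀ t < T, f t < 2 ^ (size P a T + 1) :=
    fun f hf t _ => by
    have := hf t
    omega
  refine ⟨⟨rfl, rfl, rfl, rfl, ?_, ?_, ?_, ?_, ?_⟩, ⟨?_, sum_ind P _⟩, fun l => ⟨?_, ?_, ?_, ?_⟩,
    fun r => ⟨?_, ?_, ?_, ?_, ?_, ?_, ?_, ?_, ?_⟩⟩
  · rfl
  · rfl
  · dsimp only [can]
    norm_num [← pow_mul]
  · dsimp only [can]
    have := pack_one (2 ^ (size P a T + 1)) (Nat.two_pow_pos _) T
    rw [Nat.sub_mul, one_mul] at this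
    have := Nat.le_mul_of_pos_left (pack (2 ^ (size P a T + 1)) T fun _ => 1) (Nat.two_pow_pos (size P a T + 1))
    omega
  · dsimp only [can]
    rw [← pack_mul, ← pack_add]
    exact pack_congr fun t _ => by omega
  · dsimp only [can]
    rw [← pack_finset_sum]
    exact pack_congr fun t _ => sum_ind P _
  · dsimp only [can]
    exact sub_pack_mono (hone _ fun _ => le_rfl) fun t _ => by
      rcases Nat.le_one_iff_eq_zero_or_eq_one.1 (ind_le_one P (P.run a t).1 l) with e | e <;>
        rw [e]
      · exact zero_sub _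
      · exact sub_rfl _
  · unfold Branch
    cases hl : P.code l with
    | halt =>
      have e : ∀ t < T, ind P (P.run a t).1 l = 0 := fun t ht =>
        if_neg fun e => h.2 t ht (by rw [e, hl])
      refine ⟨?_, ?_, ?_⟩ <;> simp only [can] <;>
        refine (pack_congr fun t ht => ?_).trans (pack_const_zero _ T)
      · exact e t ht
      · simp [ipOf, hl]
      · simp [izOf, hl]
    | inc r m =>
      constructor <;> simp only [can] <;>
        refine (pack_congr fun t ht => ?_).trans (pack_const_zero _ T)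
      · simp [ipOf, hl]
      · simp [izOf, hl]
    | dec r p z =>
      refine ⟨?_, ?_, ?_⟩ <;> simp only [can]
      · rw [← pack_add]
        refine pack_congr fun t _ => ?_
        have := pos_le_one P (P.run a t).2 r
        simp only [ipOf, izOf, hl]
        rw [← Nat.mul_add, Nat.add_sub_cancel' this, mul_one]
      · refine sub_pack_mono (hone _ fun t => pos_le_one P _ r) fun t _ => ?_
        simp only [ipOf, hl, ind]
        split_ifs
        · rw [one_mul]; exact sub_rfl _
        · rw [zero_mul]; exact zero_sub _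
      · refine sub_pack_mono (hone _ fun t => Nat.sub_le _ _) fun t _ => ?_
        simp only [izOf, hl, ind]
        split_ifs
        · rw [one_mul]; exact sub_rfl _
        · rw [zero_mul]; exact zero_sub _
  · exact fun hl => if_neg fun e => hl (by rw [← e]; exact h.1)
  · exact hfl.1 l
  · dsimp only [can]
    exact sub_pack_mono (fun t _ => by omega) fun t ht => sub_two_pow_sub_one (hx t ht r)
  · dsimp only [can]
    exact sub_pack_mono (hone _ fun _ => le_rfl) fun t _ => by
      rcases Nat.le_one_iff_eq_zero_or_eq_one.1 (pos_le_one P (P.run a t).2 r) with e | e <;>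
        rw [e]
      · exact zero_sub _
      · exact sub_rfl _
  · dsimp only [can]
    rw [← pack_add]
    exact pack_congr fun t _ => by have := pos_le_one P (P.run a t).2 r; omega
  · dsimp only [can]
    rw [← pack_mul, ← pack_add]
    refine pack_congr fun t _ => ?_
    rw [Nat.sub_mul, one_mul, Nat.sub_add_cancel (Nat.le_mul_of_pos_left _ hH)]
  · dsimp only [can]
    refine sub_pack_mono (fun t _ => ?_) fun t ht => ?_
    · rcases Nat.le_one_iff_eq_zero_or_eq_one.1 (pos_le_one P (P.run a t).2 r) with e | e <;>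
        rw [e] <;> omega
    · unfold pos
      split_ifs with hp
      · rw [mul_one]; exact sub_two_pow_sub_one (hx t ht r)
      · rw [show (P.run a t).2 r = 0 by omega]; exact zero_sub _
  · dsimp only [can]
    rw [← pack_mul]
  · dsimp only [can]
    rw [← pack_add]
  · dsimp only [can]
    refine sub_pack_mono (fun t ht => by have := hx t ht r; omega) fun t ht => ?_
    have := hx t ht r
    unfold pos
    split_ifs with hp
    · rw [mul_one]; exact two_pow_sub (by omega) (by omega)
    · rw [mul_zero]; exact zero_sub _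
  · exact hfl.2 r

theorem sound {a : Fin n → ℕ} {v : Val P} (h : Sys P a v) :
    P.HaltsAt a (v .T) ∧ v = can P a (v .T) (P.run a) := by
  obtain ⟨⟨b1, b2, b3, b4, b5, b6, b7, b8, b9⟩, ⟨hsI, hse⟩, hlab, hreg⟩ := h
  set T := v .T with hT
  set H := size P a T with hH
  rw [b2] at b3 b5
  rw [b3] at b4 b6
  rw [b4] at b7
  rw [b1] at b5 b6 b7
  norm_num at b5 b6 b7
  change v .pw = 2 ^ H at b5
  change v .B = 2 ^ (H + 1) at b6
  change v .BT = 2 ^ ((H + 1) * T) at b7
  rw [pow_mul] at b7
  have hB : 2 ^ (H + 1) = 2 * 2 ^ H := pow_succ' 2 H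
  have hH0 := Nat.two_pow_pos H
  have hone : ∀ f : ℕ → ℕ, (∀ t < T, f t ≤ 1) → ∀ t < T, f t < 2 ^ (H + 1) := fun f hf t ht => by
    have := hf t ht; omega
  have hO : v .ONE = pack (2 ^ (H + 1)) T fun _ => 1 := by
    have h1 := pack_one (2 ^ (H + 1)) (Nat.two_pow_pos _) T
    rw [b6, b7] at b8
    obtain ⟨C, hC⟩ : ∃ C, 2 ^ (H + 1) = C + 1 := ⟨2 ^ (H + 1) - 1, by omega⟩
    rw [hC] at h1 b8 ⊢
    rw [Nat.add_sub_cancel] at h1
    refine Nat.eq_of_mul_eq_mul_left (show 0 < C by omega) ?_
    rw [add_mul, one_mul] at b8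
    omega
  have hM : v .MASK = pack (2 ^ (H + 1)) T fun _ => 2 ^ H - 1 := by
    rw [b5, hO, ← pack_mul] at b9
    refine Nat.add_right_cancel (b9.trans ?_)
    rw [← pack_add]
    exact pack_congr fun t _ => by omega
  -- the digits
  choose ι hι1 hι2 using fun l =>
    (sub_pack (hone _ fun _ _ => le_rfl)).1 (hO ▸ (hlab l).1)
  choose x hx1 hx2 using fun r =>
    (sub_pack (f := fun _ => 2 ^ H - 1) (fun t _ => by omega)).1 (hM ▸ (hreg r).1)
  choose p hp1 hp2 using fun r =>
    (sub_pack (hone _ fun _ _ => le_rfl)).1 (hO ▸ (hreg r).2.1)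
  have hι : ∀ l, ∀ t < T, ι l t ≤ 1 := fun l t ht => (hι1 l t ht).le
  have hp : ∀ r, ∀ t < T, p r t ≤ 1 := fun r t ht => (hp1 r t ht).le
  have hx : ∀ r, ∀ t < T, x r t < 2 ^ H := fun r t ht => by have := (hx1 r t ht).le; omega
  have hq : ∀ r, v (.Q r) = pack (2 ^ (H + 1)) T fun t => 1 - p r t := by
    intro r
    refine Nat.add_left_cancel ((hreg r).2.2.1.trans ?_)
    rw [hO, hp2 r, ← pack_add]
    exact pack_congr fun t ht => by have := hp r t ht; omega
  have hPX : ∀ r, v (.PX r) = pack (2 ^ (H + 1)) T fun t => (2 ^ H - 1) * p r t := by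
    intro r
    refine Nat.add_right_cancel ((hreg r).2.2.2.1.trans ?_)
    rw [b5, hp2 r, ← pack_mul, ← pack_add]
    refine pack_congr fun t _ => ?_
    rw [Nat.sub_mul, one_mul, Nat.sub_add_cancel (Nat.le_mul_of_pos_left _ hH0)]
  have hHP : ∀ r, v (.HP r) = pack (2 ^ (H + 1)) T fun t => 2 ^ H * p r t := by
    intro r
    rw [(hreg r).2.2.2.2.2.1, b5, hp2 r, ← pack_mul]
  have hXS : ∀ r, v (.XS r) = pack (2 ^ (H + 1)) T fun t => x r t + (2 ^ H - 1) := by
    intro r
    rw [(hreg r).2.2.2.2.2.2.1, hx2 r, hM, ← pack_add]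
  have hpos : ∀ r, ∀ t < T, p r t = if 0 < x r t then 1 else 0 := by
    intro r t ht
    have hb : ∀ t < T, (2 ^ H - 1) * p r t < 2 ^ (H + 1) ∧ 2 ^ H * p r t < 2 ^ (H + 1) := by
      intro t ht
      rcases Nat.le_one_iff_eq_zero_or_eq_one.1 (hp r t ht) with e | e <;> rw [e] <;> omega
    have h1 := (sub_pack_digits (fun t ht => by have := hx r t ht; omega) (fun t ht => (hb t ht).1)
      (hx2 r ▸ hPX r ▸ (hreg r).2.2.2.2.1) t ht).le
    have h2 := (sub_pack_digits (fun t ht => (hb t ht).2) (fun t ht => by have := hx r t ht; omega)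
      (hHP r ▸ hXS r ▸ (hreg r).2.2.2.2.2.2.2.1) t ht).le
    rcases Nat.le_one_iff_eq_zero_or_eq_one.1 (hp r t ht) with e | e <;>
      rw [e] at h1 h2 ⊢ <;> split_ifs <;> omega
  have hsum : ∀ t < T, ∑ l, ι l t = 1 := by
    refine pack_inj (B := 2 ^ (H + 1)) (fun t ht => ?_) (hone _ fun _ _ => le_rfl) ?_
    · calc ∑ l, ι l t ≤ ∑ _l : Lab P, 1 := sum_le_sum fun l _ => hι l t ht
        _ < 2 ^ (H + 1) := by
          simp only [sum_const, card_univ, Fintype.card_fin, smul_eq_mul, mul_one]
          exact lt_of_le_of_lt (by simp only [hH, size]; omega) Nat.lt_two_pow_self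
    · rw [pack_finset_sum, ← hO, ← hsI]
      exact sum_congr rfl fun l _ => (hι2 l).symm
  have hcl : ∀ t, ∃ l₀, (t < T → ∀ l, ι l t = ind P l₀ l) ∧
      (t = T → ∀ l, v (.e l) = ind P l₀ l) := by
    intro t
    by_cases ht : t < T
    · obtain ⟨l₀, h0⟩ := eq_ind P (hsum t ht)
      exact ⟨l₀, fun _ => h0, fun e => by omega⟩
    · obtain ⟨l₀, h0⟩ := eq_ind P hse
      exact ⟨l₀, fun h => absurd h ht, fun _ => h0⟩
  choose cl hcl1 hcl2 using hcl
  let c : ℕ → P.Config := fun t => (cl t, fun r => if t < T then x r t else v (.F r))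
  have cx : ∀ t < T, ∀ r, (c t).2 r = x r t := fun t ht r => if_pos ht
  have cp : ∀ t < T, ∀ r, pos P (c t).2 r = p r t := fun t ht r => by
    rw [pos, cx t ht r, hpos r t ht]
  have eI : ∀ l, v (.I l) = pack (2 ^ (H + 1)) T fun t => ind P (c t).1 l := fun l =>
    (hι2 l).trans (pack_congr fun t ht => hcl1 t ht l)
  have hbr : ∀ l, v (.Ip l) = pack (2 ^ (H + 1)) T (fun t => ipOf P (c t) l) ∧
      v (.Iz l) = pack (2 ^ (H + 1)) T (fun t => izOf P (c t) l) := by
    intro l
    have hb := (hlab l).2.1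
    unfold Branch at hb
    cases hl : P.code l with
    | halt =>
      rw [hl] at hb
      constructor
      · rw [hb.2.1, ← pack_const_zero (2 ^ (H + 1)) T]
        exact pack_congr fun t _ => by simp [ipOf, hl]
      · rw [hb.2.2, ← pack_const_zero (2 ^ (H + 1)) T]
        exact pack_congr fun t _ => by simp [izOf, hl]
    | inc r m =>
      rw [hl] at hb
      constructor
      · rw [hb.1, ← pack_const_zero (2 ^ (H + 1)) T]
        exact pack_congr fun t _ => by simp [ipOf, hl]
      · rw [hb.2, ← pack_const_zero (2 ^ (H + 1)) T]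
        exact pack_congr fun t _ => by simp [izOf, hl]
    | dec r q z =>
      rw [hl] at hb
      obtain ⟨g, hg1, hg2⟩ := (sub_pack (hone _ (hp r))).1 (hp2 r ▸ hb.2.1)
      obtain ⟨g', hg1', hg2'⟩ :=
        (sub_pack (hone _ fun t _ => Nat.sub_le 1 (p r t))).1 (hq r ▸ hb.2.2)
      have hs : ∀ t < T, g t + g' t = ι l t := by
        refine pack_inj (B := 2 ^ (H + 1)) (fun t ht => ?_) (hone _ (hι l)) ?_
        · have := (hg1 t ht).le; have := (hg1' t ht).le; have := hp r t ht; omega
        · rw [pack_add, ← hg2, ← hg2', ← hι2 l]; exact hb.1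
      constructor
      · rw [hg2]
        refine pack_congr fun t ht => ?_
        simp only [ipOf, hl, cp t ht r, ← hcl1 t ht l, c]
        have h0 := hs t ht; have h1 := (hg1 t ht).le; have h2 := (hg1' t ht).le
        rcases Nat.le_one_iff_eq_zero_or_eq_one.1 (hp r t ht) with e | e <;>
          simp only [e, mul_zero, mul_one, Nat.sub_zero, Nat.sub_self] at h1 h2 ⊢ <;> omega
      · rw [hg2']
        refine pack_congr fun t ht => ?_
        simp only [izOf, hl, cp t ht r, ← hcl1 t ht l, c]
        have h0 := hs t ht; have h1 := (hg1 t ht).le; have h2 := (hg1' t ht).le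
        rcases Nat.le_one_iff_eq_zero_or_eq_one.1 (hp r t ht) with e | e <;>
          simp only [e, mul_zero, mul_one, Nat.sub_zero, Nat.sub_self] at h1 h2 ⊢ <;> omega
  have hnh : ∀ t < T, P.code (c t).1 ≠ .halt := by
    intro t ht hh
    have hb := (hlab (cl t)).2.1
    simp only [Branch, show P.code (cl t) = .halt from hh] at hb
    have := pack_inj (hone _ (hι (cl t))) (hone _ fun _ _ => Nat.zero_le 1)
      ((hι2 (cl t)).symm.trans (hb.1.trans (pack_const_zero _ T).symm)) t ht
    rw [hcl1 t ht] at this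
    simp [ind] at this
  have hv : v = can P a T c := by
    funext y
    cases y with
    | T => rfl
    | uno => exact b1
    | h => exact b2
    | h1 => exact b3
    | eT => exact b4
    | pw => exact b5
    | B => exact b6
    | BT => exact b7
    | ONE => exact hO
    | MASK => exact hM
    | X r => exact (hx2 r).trans (pack_congr fun t ht => (cx t ht r).symm)
    | P r => exact (hp2 r).trans (pack_congr fun t ht => (cp t ht r).symm)
    | Q r => exact (hq r).trans (pack_congr fun t ht => by rw [cp t ht r])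
    | PX r => exact (hPX r).trans (pack_congr fun t ht => by rw [cp t ht r])
    | HP r => exact (hHP r).trans (pack_congr fun t ht => by rw [cp t ht r])
    | XS r => exact (hXS r).trans (pack_congr fun t ht => by rw [cx t ht r])
    | F r => exact (if_neg (lt_irrefl T)).symm
    | I l => exact eI l
    | Ip l => exact (hbr l).1
    | Iz l => exact (hbr l).2
    | e l => exact hcl2 T rfl l
  have hl : ∀ l, _ := fun l => (hlab l).2.2.2
  have hr : ∀ r, _ := fun r => (hreg r).2.2.2.2.2.2.2.2
  rw [hv] at hl hr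
  dsimp only [can] at hl hr
  obtain ⟨h0, hstep⟩ := (flow_iff P a T c
    (fun r => bound_lt P a T ((initR_le P a r).trans (by omega)))
    (fun t ht r => by rw [cx t ht r]; exact hx r t ht) hnh).1 ⟨hl, hr⟩
  have hrun : ∀ t ≤ T, c t = P.run a t := by
    intro t
    induction t with
    | zero => exact fun _ => h0
    | succ t ih => intro ht; rw [hstep t (by omega), ih (by omega), run_succ]
  refine ⟨⟨?_, fun t ht => by rw [← hrun t ht.le]; exact hnh t ht⟩,
    hv.trans (can_congr P a hrun)⟩
  rw [← hrun T le_rfl]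
  by_contra hne
  have := (hlab (cl T)).2.2.1 hne
  rw [hcl2 T rfl] at this
  simp [ind] at this

end Vale.Agent.P345.Encode
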