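import Mathlib

/-!
# P345 Encode: bit masks and columns of digits
-/

namespace Vale.Agent.P345.Encode

open Finset

/-- Every bit of `a` is a bit of `b`. -/
def Sub (a b : ℕ) : Prop := ∀ i, a.testBit i = true → b.testBit i = true

theorem Sub.le {a b : ℕ} (h : Sub a b) : a ≤ b :=
  Nat.le_of_testBit h

theorem sub_rfl (a : ℕ) : Sub a a := fun _ h => h

theorem zero_sub (a : ℕ) : Sub 0 a := fun i h => by simp at h

theorem sub_zero_iff {a : ℕ} : Sub a 0 ↔ a = 0 :=
  ⟨fun h => Nat.le_zero.1 h.le, fun h => h ▸ sub_rfl 0⟩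

theorem sub_iff_mod_div (k : ℕ) {a b : ℕ} :
    Sub a b ↔ Sub (a % 2 ^ k) (b % 2 ^ k) ∧ Sub (a / 2 ^ k) (b / 2 ^ k) := by
  refine ⟨fun h => ⟨fun i hi => ?_, fun i hi => ?_⟩, fun h i hi => ?_⟩
  · simp only [Nat.testBit_mod_two_pow, Bool.and_eq_true] at hi ⊢
    exact ⟨hi.1, h i hi.2⟩
  · rw [Nat.testBit_div_two_pow] at hi ⊢
    exact h _ hi
  · rcases lt_or_ge i k with hik | hik
    · have := h.1 i (by simp [hik, hi])
      simp only [Nat.testBit_mod_two_pow, Bool.and_eq_true] at this
      exact this.2
    · have := h.2 (i - k) (by rw [Nat.testBit_div_two_pow, Nat.sub_add_cancel hik]; exact hi)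
      rwa [Nat.testBit_div_two_pow, Nat.sub_add_cancel hik] at this

theorem odd_choose_iff (a b : ℕ) : b.choose a % 2 = 1 ↔ Sub a b := by
  induction b using Nat.strong_induction_on generalizing a with
  | _ b ih =>
  rcases Nat.eq_zero_or_pos b with rfl | hb
  · rcases Nat.eq_zero_or_pos a with rfl | ha
    · simp [sub_rfl]
    · simp [Nat.choose_eq_zero_of_lt ha, sub_zero_iff, ha.ne']
  have h := @Choose.choose_modEq_choose_mod_mul_choose_div_nat b a 2 ⟨Nat.prime_two⟩
  unfold Nat.ModEq at h
  rw [h, sub_iff_mod_div 1, pow_one, Nat.mul_mod, ← ih (b / 2) (by omega) (a / 2)]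
  have hsmall : ∀ x < 2, ∀ y < 2, (y.choose x % 2 = 1 ↔ Sub x y) ∧ y.choose x % 2 < 2 := by
    intro x hx y hy
    refine ⟨?_, Nat.mod_lt _ (by norm_num)⟩
    interval_cases x <;> interval_cases y <;>
      simp [sub_rfl, zero_sub, sub_zero_iff]
  have h2 := hsmall (a % 2) (Nat.mod_lt _ (by norm_num)) (b % 2) (Nat.mod_lt _ (by norm_num))
  rw [← h2.1]
  have h3 := Nat.mod_lt ((b / 2).choose (a / 2)) (show 2 > 0 by norm_num)
  have h4 := h2.2
  generalize (b % 2).choose (a % 2) % 2 = x at *
  generalize (b / 2).choose (a / 2) % 2 = y at *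
  interval_cases x <;> interval_cases y <;> simp

/-- The number with digits `f 0, …, f (T - 1)` in base `B`. -/
def pack (B : ℕ) : ℕ → (ℕ → ℕ) → ℕ
  | 0, _ => 0
  | T + 1, f => f 0 + B * pack B T fun t => f (t + 1)

@[simp] theorem pack_zero (B : ℕ) (f : ℕ → ℕ) : pack B 0 f = 0 := rfl

theorem pack_succ (B T : ℕ) (f : ℕ → ℕ) :
    pack B (T + 1) f = f 0 + B * pack B T fun t => f (t + 1) := rfl

theorem pack_congr {B T : ℕ} {f g : ℕ → ℕ} (h : ∀ t < T, f t = g t) :
    pack B T f = pack B T g := by
  induction T generalizing f g with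
  | zero => rfl
  | succ T ih => rw [pack_succ, pack_succ, h 0 (by omega), ih fun t ht => h (t + 1) (by omega)]

theorem pack_add (B T : ℕ) (f g : ℕ → ℕ) :
    pack B T (fun t => f t + g t) = pack B T f + pack B T g := by
  induction T generalizing f g with
  | zero => rfl
  | succ T ih => rw [pack_succ, pack_succ, pack_succ, ih]; ring

theorem pack_mul (B T c : ℕ) (f : ℕ → ℕ) : pack B T (fun t => c * f t) = c * pack B T f := by
  induction T generalizing f with
  | zero => simp
  | succ T ih => rw [pack_succ, pack_succ, ih]; ring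

theorem pack_const_zero (B T : ℕ) : pack B T (fun _ => 0) = 0 := by
  induction T with
  | zero => rfl
  | succ T ih => simp [pack_succ, ih]

theorem pack_finset_sum {ι : Type} (B T : ℕ) (s : Finset ι) (f : ι → ℕ → ℕ) :
    pack B T (fun t => ∑ i ∈ s, f i t) = ∑ i ∈ s, pack B T (f i) := by
  classical
  induction s using Finset.induction_on with
  | empty => simp [pack_const_zero]
  | insert i s hi ih => simp [Finset.sum_insert hi, pack_add, ih]

theorem pack_inj {B T : ℕ} {f g : ℕ → ℕ} (hf : ∀ t < T, f t < B) (hg : ∀ t < T, g t < B)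
    (h : pack B T f = pack B T g) : ∀ t < T, f t = g t := by
  induction T generalizing f g with
  | zero => intro t ht; omega
  | succ T ih =>
    have hf0 := hf 0 (by omega)
    have hg0 := hg 0 (by omega)
    rw [pack_succ, pack_succ] at h
    have h0 : f 0 = g 0 := by
      have := congrArg (· % B) h
      simpa [Nat.add_mul_mod_self_left, Nat.mod_eq_of_lt hf0, Nat.mod_eq_of_lt hg0] using this
    rw [h0] at h
    have h' := Nat.eq_of_mul_eq_mul_left (by omega) (Nat.add_left_cancel h)
    intro t ht
    rcases t with _ | t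
    · exact h0
    · exact ih (fun t ht => hf _ (by omega)) (fun t ht => hg _ (by omega)) h' t (by omega)

theorem pack_div_pow_mod {B T : ℕ} {f : ℕ → ℕ} (hf : ∀ t < T, f t < B) (t : ℕ) :
    pack B T f / B ^ t % B = if t < T then f t else 0 := by
  induction T generalizing f t with
  | zero => simp
  | succ T ih =>
    have h0 := hf 0 (by omega)
    rw [pack_succ]
    rcases t with _ | t
    · simp [Nat.add_mul_mod_self_left, Nat.mod_eq_of_lt h0]
    · rw [pow_succ', ← Nat.div_div_eq_div_mul, Nat.add_mul_div_left _ _ (by omega),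
        Nat.div_eq_of_lt h0, zero_add, ih (fun t ht => hf _ (by omega))]
      simp

/-- A submask of a column is a column of submasks. -/
theorem sub_pack {k T a : ℕ} {f : ℕ → ℕ} (hf : ∀ t < T, f t < 2 ^ k) :
    Sub a (pack (2 ^ k) T f) ↔
      ∃ g : ℕ → ℕ, (∀ t < T, Sub (g t) (f t)) ∧ a = pack (2 ^ k) T g := by
  induction T generalizing a f with
  | zero => exact ⟨fun h => ⟨fun _ => 0, by intro t ht; omega, sub_zero_iff.1 h⟩,
      fun ⟨g, _, h⟩ => by subst h; exact sub_rfl 0⟩
  | succ T ih =>
    have h0 := hf 0 (by omega)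
    have hm : ∀ x r : ℕ, x < 2 ^ k →
        (x + 2 ^ k * r) % 2 ^ k = x ∧ (x + 2 ^ k * r) / 2 ^ k = r := fun x r hx => by
      simp [Nat.add_mul_mod_self_left, Nat.mod_eq_of_lt hx,
        Nat.add_mul_div_left _ _ (Nat.two_pow_pos k), Nat.div_eq_of_lt hx]
    rw [pack_succ, sub_iff_mod_div k, (hm _ _ h0).1, (hm _ _ h0).2,
      ih fun t ht => hf _ (by omega)]
    constructor
    · rintro ⟨ha, g, hg, he⟩
      refine ⟨fun | 0 => a % 2 ^ k | t + 1 => g t, fun t ht => ?_, ?_⟩
      · rcases t with _ | t
        · exact ha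
        · exact hg t (by omega)
      · rw [pack_succ]
        show a = a % 2 ^ k + 2 ^ k * pack (2 ^ k) T g
        rw [← he, Nat.mod_add_div]
    · rintro ⟨g, hg, rfl⟩
      have hg0 := (hg 0 (by omega)).le.trans_lt h0
      rw [pack_succ, (hm _ _ hg0).1, (hm _ _ hg0).2]
      exact ⟨hg 0 (by omega), fun t => g (t + 1), fun t ht => hg _ (by omega), rfl⟩

theorem pack_one (B : ℕ) (hB : 0 < B) (T : ℕ) :
    (B - 1) * pack B T (fun _ => 1) + 1 = B ^ T := by
  obtain ⟨C, rfl⟩ := Nat.exists_eq_add_of_le' hB
  induction T with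
  | zero => simp
  | succ T ih =>
    rw [pack_succ, pow_succ', ← ih]
    simp only [Nat.add_sub_cancel]
    ring

/-- The shift equation of a column: it says that the digits of `x`, followed by `f`, evolve. -/
theorem shift_iff {B : ℕ} : ∀ (T : ℕ) (x u d : ℕ → ℕ) (i e f : ℕ),
    (∀ t < T, u t < B) → (∀ t, t + 1 < T → x (t + 1) + d t < B) → i < B →
    (0 < T → x 0 + e < B) →
    (B * pack B T u + i = B * pack B T d + e + pack B T x + f * B ^ T ↔
      (if 0 < T then x 0 else f) + e = i ∧
        ∀ t < T, (if t + 1 < T then x (t + 1) else f) + d t = u t) := by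
  intro T
  induction T with
  | zero => intros; simp; omega
  | succ T ih =>
    intro x u d i e f hu hxd hi hx0
    have hx0' := hx0 (by omega)
    have hB : 0 < B := by omega
    have key := ih (fun t => x (t + 1)) (fun t => u (t + 1)) (fun t => d (t + 1)) (u 0) (d 0) f
      (fun t ht => hu _ (by omega)) (fun t ht => hxd (t + 1) (by omega)) (hu 0 (by omega))
      (fun h => hxd 0 (by omega))
    have step : B * pack B (T + 1) u + i =
        B * pack B (T + 1) d + e + pack B (T + 1) x + f * B ^ (T + 1) ↔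
        x 0 + e = i ∧ B * pack B T (fun t => u (t + 1)) + u 0 =
          B * pack B T (fun t => d (t + 1)) + d 0 + pack B T (fun t => x (t + 1)) + f * B ^ T := by
      rw [pack_succ, pack_succ, pack_succ, pow_succ]
      constructor
      · intro h
        have h1 : i + B * (u 0 + B * pack B T (fun t => u (t + 1))) =
            (x 0 + e) + B * (d 0 + B * pack B T (fun t => d (t + 1)) +
              pack B T (fun t => x (t + 1)) + f * B ^ T) := by linear_combination h
        have h2 : i = x 0 + e := by
          have := congrArg (· % B) h1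
          simpa [Nat.add_mul_mod_self_left, Nat.mod_eq_of_lt hi, Nat.mod_eq_of_lt hx0'] using this
        rw [h2] at h1
        refine ⟨h2.symm, ?_⟩
        linear_combination Nat.eq_of_mul_eq_mul_left hB (Nat.add_left_cancel h1)
      · rintro ⟨h1, h2⟩
        linear_combination B * h2 - h1
    rw [step, key]
    simp only [Nat.zero_lt_succ, if_true]
    refine and_congr_right fun _ => ⟨fun ⟨h1, h2⟩ t ht => ?_, fun h => ⟨?_, fun t ht => ?_⟩⟩
    · rcases t with _ | t
      · simpa using h1
      · have := h2 t (by omega)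
        simpa using this
    · simpa using h 0 (by omega)
    · simpa using h (t + 1) (by omega)

/-- The binomial coefficient as a digit. -/
theorem choose_eq_digit (a b : ℕ) :
    (2 ^ (b + 1) + 1) ^ b / (2 ^ (b + 1)) ^ a % 2 ^ (b + 1) = b.choose a := by
  set R := 2 ^ (b + 1)
  have hbound : ∀ i, b.choose i < R := fun i =>
    (Nat.choose_le_two_pow b i).trans_lt (Nat.pow_lt_pow_right (by norm_num) (by omega))
  have hp : ∀ (T : ℕ) (f : ℕ → ℕ), pack R T f = ∑ i ∈ range T, f i * R ^ i := by
    intro T
    induction T with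
    | zero => simp
    | succ T ih =>
      intro f
      rw [pack_succ, sum_range_succ', ih, mul_sum, pow_zero, mul_one, add_comm]
      congr 1
      exact sum_congr rfl fun i _ => by ring
  have he : (R + 1) ^ b = pack R (b + 1) fun i => b.choose i := by
    rw [hp, add_pow]
    exact sum_congr rfl fun i _ => by simp [mul_comm]
  rw [he, pack_div_pow_mod fun t _ => hbound t]
  split_ifs with h
  · rfl
  · exact (Nat.choose_eq_zero_of_lt (by omega)).symm

end Vale.Agent.P345.Encode
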