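import Vale.Agent.P345.Defs
import Vale.Agent.P345.Encode.Mask

/-!
# P345 Encode: what flows into a label and into a register
-/

namespace Vale.Agent.P345.Encode

open Finset

variable {n : ℕ} (P : Program n) {M N : Type} [AddCommMonoid M] [AddCommMonoid N]

/-- The registers. -/
abbrev Reg : Type := Fin (n + P.extra)

/-- The labels. -/
abbrev Lab : Type := Fin P.labels

/-- The columns flowing into the label `l`. -/
def inL (J Jp Jz : Lab P → M) (l : Lab P) : M :=
  ∑ k, match P.code k with
    | .inc _ m => if m = l then J k else 0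
    | .dec _ p z => (if p = l then Jp k else 0) + (if z = l then Jz k else 0)
    | .halt => 0

/-- The increments of the register `r`. -/
def incR (J : Lab P → M) (r : Reg P) : M :=
  ∑ k, match P.code k with
    | .inc r' _ => if r' = r then J k else 0
    | _ => 0

/-- The decrements of the register `r`. -/
def decR (J : Lab P → M) (r : Reg P) : M :=
  ∑ k, match P.code k with
    | .dec r' _ _ => if r' = r then J k else 0
    | _ => 0

theorem map_inL (f : M →+ N) (J Jp Jz : Lab P → M) (l : Lab P) :
    f (inL P J Jp Jz l) = inL P (fun k => f (J k)) (fun k => f (Jp k)) (fun k => f (Jz k)) l := by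
  simp only [inL, map_sum]
  refine sum_congr rfl fun k _ => ?_
  cases P.code k <;> simp [apply_ite f]

theorem map_incR (f : M →+ N) (J : Lab P → M) (r : Reg P) :
    f (incR P J r) = incR P (fun k => f (J k)) r := by
  simp only [incR, map_sum]
  refine sum_congr rfl fun k _ => ?_
  cases P.code k <;> simp [apply_ite f]

theorem map_decR (f : M →+ N) (J : Lab P → M) (r : Reg P) :
    f (decR P J r) = decR P (fun k => f (J k)) r := by
  simp only [decR, map_sum]
  refine sum_congr rfl fun k _ => ?_
  cases P.code k <;> simp [apply_ite f]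

/-- A column as an additive map of its digits. -/
def packHom (B T : ℕ) : (ℕ → ℕ) →+ ℕ where
  toFun := pack B T
  map_zero' := pack_const_zero B T
  map_add' f g := pack_add B T f g

theorem pack_inL (B T : ℕ) (J Jp Jz : Lab P → ℕ → ℕ) (l : Lab P) :
    pack B T (fun t => inL P (J · t) (Jp · t) (Jz · t) l) =
      inL P (fun k => pack B T (J k)) (fun k => pack B T (Jp k)) (fun k => pack B T (Jz k)) l := by
  refine (congrArg (packHom B T) ?_).trans (map_inL P (packHom B T) J Jp Jz l)
  funext t
  exact (map_inL P (Pi.evalAddMonoidHom (fun _ : ℕ => ℕ) t) J Jp Jz l).symm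

theorem pack_incR (B T : ℕ) (J : Lab P → ℕ → ℕ) (r : Reg P) :
    pack B T (fun t => incR P (J · t) r) = incR P (fun k => pack B T (J k)) r := by
  refine (congrArg (packHom B T) ?_).trans (map_incR P (packHom B T) J r)
  funext t
  exact (map_incR P (Pi.evalAddMonoidHom (fun _ : ℕ => ℕ) t) J r).symm

theorem pack_decR (B T : ℕ) (J : Lab P → ℕ → ℕ) (r : Reg P) :
    pack B T (fun t => decR P (J · t) r) = decR P (fun k => pack B T (J k)) r := by
  refine (congrArg (packHom B T) ?_).trans (map_decR P (packHom B T) J r)
  funext t
  exact (map_decR P (Pi.evalAddMonoidHom (fun _ : ℕ => ℕ) t) J r).symm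

/-- The digit of a label column. -/
def ind (c l : Lab P) : ℕ := if c = l then 1 else 0

/-- The digit of a positivity column. -/
def pos (x : Reg P → ℕ) (r : Reg P) : ℕ := if 0 < x r then 1 else 0

/-- The digit of a positive branch. -/
def ipOf (c : P.Config) (l : Lab P) : ℕ :=
  match P.code l with
  | .dec r _ _ => ind P c.1 l * pos P c.2 r
  | _ => 0

/-- The digit of a zero branch. -/
def izOf (c : P.Config) (l : Lab P) : ℕ :=
  match P.code l with
  | .dec r _ _ => ind P c.1 l * (1 - pos P c.2 r)
  | _ => 0

theorem ind_le_one (c l : Lab P) : ind P c l ≤ 1 := by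
  unfold ind; split_ifs <;> omega

theorem pos_le_one (x : Reg P → ℕ) (r : Reg P) : pos P x r ≤ 1 := by
  unfold pos; split_ifs <;> omega

theorem ipOf_le_one (c : P.Config) (l : Lab P) : ipOf P c l ≤ 1 := by
  unfold ipOf
  cases P.code l with
  | dec r _ _ => exact mul_le_one' (ind_le_one P _ _) (pos_le_one P _ _)
  | _ => simp

theorem izOf_le_one (c : P.Config) (l : Lab P) : izOf P c l ≤ 1 := by
  unfold izOf
  cases P.code l with
  | dec r _ _ => exact mul_le_one' (ind_le_one P _ _) (Nat.sub_le _ _)
  | _ => simp

theorem incR_ind_le_one (c : Lab P) (r : Reg P) : incR P (ind P c) r ≤ 1 := by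
  unfold incR
  rw [sum_eq_single c (fun k _ hk => by cases P.code k <;> simp [ind, Ne.symm hk]) (by simp)]
  cases P.code c <;> simp [ind]
  split_ifs <;> omega

theorem decR_ipOf_le_one (c : P.Config) (r : Reg P) : decR P (ipOf P c) r ≤ 1 := by
  unfold decR
  rw [sum_eq_single c.1
    (fun k _ hk => by cases h : P.code k <;> simp [ipOf, h, ind, Ne.symm hk]) (by simp)]
  cases h : P.code c.1 <;> simp [ipOf, h, ind]
  split_ifs
  · exact pos_le_one P _ _
  · omega

/-- One step of the machine in terms of digits: the labels. -/
theorem inL_step (c : P.Config) (hc : P.code c.1 ≠ .halt) (l : Lab P) :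
    inL P (ind P c.1) (ipOf P c) (izOf P c) l = ind P (P.step c).1 l := by
  unfold inL
  rw [sum_eq_single c.1
    (fun k _ hk => by cases h : P.code k <;> simp [ipOf, izOf, h, ind, Ne.symm hk]) (by simp)]
  cases h : P.code c.1 with
  | inc r m => simp [ind, Program.step, h]
  | dec r p z =>
    by_cases hx : c.2 r = 0
    · simp [ind, ipOf, izOf, pos, Program.step, h, hx]
    · simp [ind, ipOf, izOf, pos, Program.step, h, hx, Nat.pos_of_ne_zero hx]
  | halt => exact absurd h hc

/-- One step of the machine in terms of digits: the registers. -/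
theorem reg_step (c : P.Config) (r : Reg P) :
    (P.step c).2 r + decR P (ipOf P c) r = c.2 r + incR P (ind P c.1) r := by
  unfold incR decR
  rw [sum_eq_single c.1
      (fun k _ hk => by cases h : P.code k <;> simp [ipOf, h, ind, Ne.symm hk]) (by simp),
    sum_eq_single c.1 (fun k _ hk => by cases P.code k <;> simp [ind, Ne.symm hk]) (by simp)]
  cases h : P.code c.1 with
  | inc r' m =>
    by_cases hr : r' = r
    · subst hr; simp [ind, Program.step, h]
    · simp [Program.step, h, hr, Function.update_of_ne (Ne.symm hr)]
  | dec r' p z =>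
    by_cases hx : c.2 r' = 0
    · simp [ind, ipOf, pos, Program.step, h, hx]
    · by_cases hr : r' = r
      · subst hr; simp [ind, ipOf, pos, Program.step, h, hx, Nat.pos_of_ne_zero hx]; omega
      · simp [Program.step, h, hx, hr, Function.update_of_ne (Ne.symm hr)]
  | halt => simp [Program.step, h]

end Vale.Agent.P345.Encode
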