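import Vale.Agent.P345.Defs
import Vale.Agent.P345.Encode.Mask

/-!
# P345 Encode: relations with single-fold exponential representations
-/

open MvPolynomial

namespace Vale.Agent.P345.Encode

variable {α β : Type}

/-- `S` has a single-fold exponential representation. -/
def SF (S : (α → ℕ) → Prop) : Prop :=
  ∃ E : ExpSystem α, (∀ a, S a ↔ ∃ w, E.Sol a w) ∧ E.SingleFold

/-- The value of a variable as an integer. -/
noncomputable abbrev ev (a : α → ℕ) (p : MvPolynomial α ℤ) : ℤ := eval (fun i => (a i : ℤ)) p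

theorem SF.congr {S T : (α → ℕ) → Prop} (h : SF S) (e : ∀ a, S a ↔ T a) : SF T := by
  obtain ⟨E, hE, hs⟩ := h
  exact ⟨E, fun a => (e a).symm.trans (hE a), hs⟩

theorem sf_poly (p : MvPolynomial α ℤ) : SF fun a => ev a p = 0 := by
  refine ⟨⟨PEmpty, inferInstance, [rename Sum.inl p], []⟩, fun a => ?_, fun a w w' _ _ => ?_⟩
  · simp only [ExpSystem.Sol, List.mem_singleton, forall_eq, List.not_mem_nil, IsEmpty.forall_iff,
      implies_true, and_true, ev, eval_rename]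
    exact ⟨fun h => ⟨fun i => i.elim, h⟩, fun ⟨_, h⟩ => h⟩
  · funext i; exact i.elim

theorem sf_exp (b e z : α) : SF fun a => a z = (a b + 1) ^ a e := by
  refine ⟨⟨PEmpty, inferInstance, [], [(.inl b, .inl e, .inl z)]⟩, fun a => ?_,
    fun a w w' _ _ => ?_⟩
  · simp only [ExpSystem.Sol, List.not_mem_nil, IsEmpty.forall_iff, implies_true, true_and,
      List.mem_singleton, forall_eq, Sum.elim_inl]
    exact ⟨fun h => ⟨fun i => i.elim, h⟩, fun ⟨_, h⟩ => h⟩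
  · funext i; exact i.elim

theorem sf_true : SF fun _ : α → ℕ => True :=
  (sf_poly (0 : MvPolynomial α ℤ)).congr fun _ => by simp [ev]

theorem SF.and {S T : (α → ℕ) → Prop} (hS : SF S) (hT : SF T) : SF fun a => S a ∧ T a := by
  obtain ⟨⟨W, fW, eqs, exps⟩, hE, hs⟩ := hS
  obtain ⟨⟨W', fW', eqs', exps'⟩, hE', hs'⟩ := hT
  let i : α ⊕ W → α ⊕ (W ⊕ W') := Sum.map id Sum.inl
  let j : α ⊕ W' → α ⊕ (W ⊕ W') := Sum.map id Sum.inr
  let F : ExpSystem α := ⟨W ⊕ W', inferInstance,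
    eqs.map (rename i) ++ eqs'.map (rename j),
    exps.map (fun x => (i x.1, i x.2.1, i x.2.2)) ++ exps'.map (fun x => (j x.1, j x.2.1, j x.2.2))⟩
  have hF : ∀ (a : α → ℕ) (v : W ⊕ W' → ℕ), F.Sol a v ↔
      (⟨W, fW, eqs, exps⟩ : ExpSystem α).Sol a (v ∘ Sum.inl) ∧
      (⟨W', fW', eqs', exps'⟩ : ExpSystem α).Sol a (v ∘ Sum.inr) := by
    intro a v
    have ei : ∀ x, Sum.elim a v (i x) = Sum.elim a (v ∘ Sum.inl) x := by rintro (x | x) <;> rfl
    have ej : ∀ x, Sum.elim a v (j x) = Sum.elim a (v ∘ Sum.inr) x := by rintro (x | x) <;> rfl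
    simp only [F, ExpSystem.Sol, List.mem_append, List.mem_map, or_imp, forall_and,
      forall_exists_index, and_imp, forall_apply_eq_imp_iff₂, eval_rename, Function.comp_def, ei,
      ej]
    tauto
  refine ⟨F, fun a => ⟨fun h => ?_, fun ⟨v, hv⟩ => ?_⟩, fun a v v' h h' => ?_⟩
  · obtain ⟨w, hw⟩ := (hE a).1 h.1
    obtain ⟨w', hw'⟩ := (hE' a).1 h.2
    exact ⟨Sum.elim w w', (hF a _).2 ⟨hw, hw'⟩⟩
  · exact ⟨(hE a).2 ⟨_, ((hF a v).1 hv).1⟩, (hE' a).2 ⟨_, ((hF a v).1 hv).2⟩⟩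
  · funext x
    rcases x with x | x
    · exact congrFun (hs a _ _ ((hF a v).1 h).1 ((hF a v').1 h').1) x
    · exact congrFun (hs' a _ _ ((hF a v).1 h).2 ((hF a v').1 h').2) x

theorem sf_list {ι : Type} (l : List ι) (S : ι → (α → ℕ) → Prop) (h : ∀ i ∈ l, SF (S i)) :
    SF fun a => ∀ i ∈ l, S i a := by
  induction l with
  | nil => exact sf_true.congr fun a => by simp
  | cons i l ih =>
    exact ((h i (by simp)).and (ih fun j hj => h j (by simp [hj]))).congr fun a => by simp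

theorem sf_forall {ι : Type} [Fintype ι] (S : ι → (α → ℕ) → Prop) (h : ∀ i, SF (S i)) :
    SF fun a => ∀ i, S i a :=
  (sf_list Finset.univ.toList S fun i _ => h i).congr fun a => by simp

theorem SF.comap {S : (β → ℕ) → Prop} (h : SF S) (f : β → α) : SF fun a => S (a ∘ f) := by
  obtain ⟨⟨W, fW, eqs, exps⟩, hE, hs⟩ := h
  let i : β ⊕ W → α ⊕ W := Sum.map f id
  let F : ExpSystem α := ⟨W, fW, eqs.map (rename i),
    exps.map (fun x => (i x.1, i x.2.1, i x.2.2))⟩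
  have hF : ∀ (a : α → ℕ) (v : W → ℕ),
      F.Sol a v ↔ (⟨W, fW, eqs, exps⟩ : ExpSystem β).Sol (a ∘ f) v := by
    intro a v
    have ei : ∀ x, Sum.elim a v (i x) = Sum.elim (a ∘ f) v x := by rintro (x | x) <;> rfl
    simp only [F, ExpSystem.Sol, List.mem_map, forall_exists_index, and_imp,
      forall_apply_eq_imp_iff₂, eval_rename, Function.comp_def, ei]
  exact ⟨F, fun a => (hE _).trans (exists_congr fun v => (hF a v).symm),
    fun a v v' hv hv' => hs _ v v' ((hF a v).1 hv) ((hF a v').1 hv')⟩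

/-- Hiding variables that are determined by the others. -/
theorem SF.hide [Fintype β] {S : (α ⊕ β → ℕ) → Prop} (h : SF S)
    (hu : ∀ a v v', S (Sum.elim a v) → S (Sum.elim a v') → v = v') :
    SF fun a => ∃ v, S (Sum.elim a v) := by
  obtain ⟨⟨W, fW, eqs, exps⟩, hE, hs⟩ := h
  let i : (α ⊕ β) ⊕ W → α ⊕ (β ⊕ W) := Equiv.sumAssoc α β W
  let F : ExpSystem α := ⟨β ⊕ W, inferInstance, eqs.map (rename i),
    exps.map (fun x => (i x.1, i x.2.1, i x.2.2))⟩
  have hF : ∀ (a : α → ℕ) (v : β ⊕ W → ℕ), F.Sol a v ↔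
      (⟨W, fW, eqs, exps⟩ : ExpSystem (α ⊕ β)).Sol (Sum.elim a (v ∘ Sum.inl)) (v ∘ Sum.inr) := by
    intro a v
    have ei : ∀ x, Sum.elim a v (i x) =
        Sum.elim (Sum.elim a (v ∘ Sum.inl)) (v ∘ Sum.inr) x := by
      rintro ((x | x) | x) <;> rfl
    simp only [F, ExpSystem.Sol, List.mem_map, forall_exists_index, and_imp,
      forall_apply_eq_imp_iff₂, eval_rename, Function.comp_def, ei]
  refine ⟨F, fun a => ⟨fun ⟨v, hv⟩ => ?_, fun ⟨w, hw⟩ => ?_⟩, fun a w w' h h' => ?_⟩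
  · obtain ⟨w, hw⟩ := (hE _).1 hv
    exact ⟨Sum.elim v w, (hF a _).2 hw⟩
  · exact ⟨_, (hE _).2 ⟨_, (hF a w).1 hw⟩⟩
  · have h1 := (hF a w).1 h
    have h2 := (hF a w').1 h'
    have e : w ∘ Sum.inl = w' ∘ Sum.inl :=
      hu a _ _ ((hE _).2 ⟨_, h1⟩) ((hE _).2 ⟨_, h2⟩)
    rw [← e] at h2
    have e' := hs _ _ _ h1 h2
    funext x
    rcases x with x | x
    · exact congrFun e x
    · exact congrFun e' x

/-- An equation between two polynomials. -/
theorem sf_eq (p q : MvPolynomial α ℤ) : SF fun a => ev a p = ev a q :=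
  (sf_poly (p - q)).congr fun a => by simp [ev, sub_eq_zero]

/-- Auxiliary variables of the submask relation. -/
inductive SubVar where
  | one | b1 | R | Rm | D | U | q | r | s | q2 | c | s2 | k
deriving DecidableEq

instance : Fintype SubVar :=
  ⟨{.one, .b1, .R, .Rm, .D, .U, .q, .r, .s, .q2, .c, .s2, .k}, fun x => by cases x <;> simp⟩

/-- The equations of the submask relation. -/
def SubSol (x y : ℕ) (v : SubVar → ℕ) : Prop :=
  v .one = 1 ∧ v .b1 = y + 1 ∧ v .R = (v .one + 1) ^ v .b1 ∧ v .Rm + 1 = v .R ∧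
    v .D = (v .Rm + 1) ^ x ∧ v .U = (v .R + 1) ^ y ∧ v .U = v .q * v .D + v .r ∧
    v .r + v .s + 1 = v .D ∧ v .q = v .q2 * v .R + v .c ∧ v .c + v .s2 + 1 = v .R ∧
    v .c = 2 * v .k + 1

theorem subSol_iff {x y : ℕ} {v : SubVar → ℕ} :
    SubSol x y v → Sub x y ∧ v = fun
      | .one => 1
      | .b1 => y + 1
      | .R => 2 ^ (y + 1)
      | .Rm => 2 ^ (y + 1) - 1
      | .D => (2 ^ (y + 1)) ^ x
      | .U => (2 ^ (y + 1) + 1) ^ y
      | .q => (2 ^ (y + 1) + 1) ^ y / (2 ^ (y + 1)) ^ x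
      | .r => (2 ^ (y + 1) + 1) ^ y % (2 ^ (y + 1)) ^ x
      | .s => (2 ^ (y + 1)) ^ x - (2 ^ (y + 1) + 1) ^ y % (2 ^ (y + 1)) ^ x - 1
      | .q2 => (2 ^ (y + 1) + 1) ^ y / (2 ^ (y + 1)) ^ x / 2 ^ (y + 1)
      | .c => y.choose x
      | .s2 => 2 ^ (y + 1) - y.choose x - 1
      | .k => y.choose x / 2 := by
  rintro ⟨h1, h2, h3, h4, h5, h6, h7, h8, h9, h10, h11⟩
  rw [h1, h2] at h3
  norm_num at h3
  rw [h4, h3] at h5
  rw [h3] at h6 h9 h10
  rw [h6, h5] at h7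
  rw [h5] at h8
  have hRm : v .Rm = 2 ^ (y + 1) - 1 := by omega
  set R := 2 ^ (y + 1)
  set D := R ^ x
  set U := (R + 1) ^ y
  have hq := (Nat.div_mod_unique (a := U) (b := D) (c := v .r) (d := v .q) (by omega)).2
    ⟨by rw [h7]; ring, by omega⟩
  have hq2 := (Nat.div_mod_unique (a := v .q) (b := R) (c := v .c) (d := v .q2) (by omega)).2
    ⟨by rw [h9]; ring, by omega⟩
  rw [← hq.1] at hq2
  have hc : y.choose x = v .c := by rw [← choose_eq_digit]; exact hq2.2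
  refine ⟨(odd_choose_iff x y).1 (by omega), funext fun i => ?_⟩
  obtain ⟨e1, e2⟩ := hq
  cases i <;> simp only [h1, h2, h3, hRm, h5, h6, e1, e2, ← hc, ← hq2.1] <;> omega

/-- Being a submask is single-fold. -/
theorem sf_sub (i j : α) : SF fun a => Sub (a i) (a j) := by
  let u (z : SubVar) : MvPolynomial (α ⊕ SubVar) ℤ := X (Sum.inr z)
  have h : SF fun a : α ⊕ SubVar → ℕ =>
      SubSol (a (.inl i)) (a (.inl j)) (a ∘ Sum.inr) :=
    ((sf_eq (u .one) 1).and <| (sf_eq (u .b1) (X (Sum.inl j) + 1)).and <|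
      (sf_exp (.inr .one) (.inr .b1) (.inr .R)).and <| (sf_eq (u .Rm + 1) (u .R)).and <|
      (sf_exp (.inr .Rm) (.inl i) (.inr .D)).and <|
      (sf_exp (.inr .R) (.inl j) (.inr .U)).and <|
      (sf_eq (u .U) (u .q * u .D + u .r)).and <| (sf_eq (u .r + u .s + 1) (u .D)).and <|
      (sf_eq (u .q) (u .q2 * u .R + u .c)).and <|
      (sf_eq (u .c + u .s2 + 1) (u .R)).and <| sf_eq (u .c) (2 * u .k + 1)).congr fun a => by
        simp only [u, ev, map_add, map_mul, map_one, map_ofNat, eval_X, SubSol, Function.comp_def]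
        norm_cast
  refine (h.hide fun a v v' hv hv' => ?_).congr fun a => ⟨fun ⟨v, hv⟩ => (subSol_iff hv).1,
    fun hsub => ?_⟩
  · exact (subSol_iff hv).2.trans (subSol_iff hv').2.symm
  · set x := a i
    set y := a j
    have hR : 0 < 2 ^ (y + 1) := Nat.two_pow_pos _
    have hD : 0 < (2 ^ (y + 1)) ^ x := Nat.pow_pos hR
    have hc := choose_eq_digit x y
    have ho := (odd_choose_iff x y).2 hsub
    refine ⟨fun
      | .one => 1
      | .b1 => y + 1
      | .R => 2 ^ (y + 1)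
      | .Rm => 2 ^ (y + 1) - 1
      | .D => (2 ^ (y + 1)) ^ x
      | .U => (2 ^ (y + 1) + 1) ^ y
      | .q => (2 ^ (y + 1) + 1) ^ y / (2 ^ (y + 1)) ^ x
      | .r => (2 ^ (y + 1) + 1) ^ y % (2 ^ (y + 1)) ^ x
      | .s => (2 ^ (y + 1)) ^ x - (2 ^ (y + 1) + 1) ^ y % (2 ^ (y + 1)) ^ x - 1
      | .q2 => (2 ^ (y + 1) + 1) ^ y / (2 ^ (y + 1)) ^ x / 2 ^ (y + 1)
      | .c => y.choose x
      | .s2 => 2 ^ (y + 1) - y.choose x - 1
      | .k => y.choose x / 2, ?_⟩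
    have hlt := Nat.mod_lt ((2 ^ (y + 1) + 1) ^ y) hD
    have hclt := Nat.mod_lt ((2 ^ (y + 1) + 1) ^ y / (2 ^ (y + 1)) ^ x) hR
    refine ⟨rfl, rfl, by norm_num, ?_, ?_, rfl, ?_, ?_, ?_, ?_, ?_⟩ <;>
      simp only [Function.comp_def, Sum.elim_inr, Sum.elim_inl]
    · omega
    · rw [Nat.sub_add_cancel hR]
    · rw [mul_comm, Nat.div_add_mod]
    · omega
    · rw [mul_comm, ← hc, Nat.div_add_mod]
    · omega
    · omega

end Vale.Agent.P345.Encode
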