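import Vale.Agent.P345.Encode.SF
import Vale.Agent.P345.Encode.Flow

/-!
# P345 Encode: the system that masks the history of a machine
-/

open MvPolynomial

namespace Vale.Agent.P345.Encode

open Finset

/-- The unknowns. -/
inductive Var (R L : ℕ) where
  | T | uno | h | h1 | eT | pw | B | BT | ONE | MASK
  | X (r : Fin R) | P (r : Fin R) | Q (r : Fin R) | PX (r : Fin R) | HP (r : Fin R)
  | XS (r : Fin R) | F (r : Fin R)
  | I (l : Fin L) | Ip (l : Fin L) | Iz (l : Fin L) | e (l : Fin L)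
deriving DecidableEq

noncomputable instance (R L : ℕ) : Fintype (Var R L) :=
  Fintype.ofSurjective
    (fun
      | .inl i => ([.T, .uno, .h, .h1, .eT, .pw, .B, .BT, .ONE, .MASK] : List (Var R L)).get i
      | .inr (.inl (k, r)) => ([.X r, .P r, .Q r, .PX r, .HP r, .XS r, .F r] :
          List (Var R L)).get k
      | .inr (.inr (k, l)) => ([.I l, .Ip l, .Iz l, .e l] : List (Var R L)).get k :
      Fin 10 ⊕ (Fin 7 × Fin R) ⊕ (Fin 4 × Fin L) → Var R L)
    (fun
      | .T => ⟨.inl 0, rfl⟩ | .uno => ⟨.inl 1, rfl⟩ | .h => ⟨.inl 2, rfl⟩ | .h1 => ⟨.inl 3, rfl⟩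
      | .eT => ⟨.inl 4, rfl⟩ | .pw => ⟨.inl 5, rfl⟩ | .B => ⟨.inl 6, rfl⟩ | .BT => ⟨.inl 7, rfl⟩
      | .ONE => ⟨.inl 8, rfl⟩ | .MASK => ⟨.inl 9, rfl⟩
      | .X r => ⟨.inr (.inl (0, r)), rfl⟩ | .P r => ⟨.inr (.inl (1, r)), rfl⟩
      | .Q r => ⟨.inr (.inl (2, r)), rfl⟩ | .PX r => ⟨.inr (.inl (3, r)), rfl⟩
      | .HP r => ⟨.inr (.inl (4, r)), rfl⟩ | .XS r => ⟨.inr (.inl (5, r)), rfl⟩
      | .F r => ⟨.inr (.inl (6, r)), rfl⟩
      | .I l => ⟨.inr (.inr (0, l)), rfl⟩ | .Ip l => ⟨.inr (.inr (1, l)), rfl⟩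
      | .Iz l => ⟨.inr (.inr (2, l)), rfl⟩ | .e l => ⟨.inr (.inr (3, l)), rfl⟩)

variable {n : ℕ} (P : Program n)

/-- The valuations of the unknowns. -/
abbrev Val : Type := Var (n + P.extra) P.labels → ℕ

/-- The initial value of a register. -/
abbrev initR (a : Fin n → ℕ) (r : Reg P) : ℕ := Fin.append a 0 r

/-- The numbers that depend only on `h` and `T`. -/
def SysBase (a : Fin n → ℕ) (v : Val P) : Prop :=
  v .uno = 1 ∧ v .h = (∑ i, a i) + v .T + (P.labels + 2) ∧ v .h1 = v .h + 1 ∧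
    v .eT = v .h1 * v .T ∧ v .pw = (v .uno + 1) ^ v .h ∧ v .B = (v .uno + 1) ^ v .h1 ∧
    v .BT = (v .uno + 1) ^ v .eT ∧ v .B * v .ONE + 1 = v .BT + v .ONE ∧
    v .MASK + v .ONE = v .pw * v .ONE

/-- The conditions on the branches at a label. -/
def Branch (v : Val P) (l : Lab P) : Prop :=
  match P.code l with
  | .halt => v (.I l) = 0 ∧ v (.Ip l) = 0 ∧ v (.Iz l) = 0
  | .inc _ _ => v (.Ip l) = 0 ∧ v (.Iz l) = 0
  | .dec r _ _ => v (.Ip l) + v (.Iz l) = v (.I l) ∧ Sub (v (.Ip l)) (v (.P r)) ∧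
      Sub (v (.Iz l)) (v (.Q r))

/-- The conditions on the columns of a label. -/
def SysLab (v : Val P) (l : Lab P) : Prop :=
  Sub (v (.I l)) (v .ONE) ∧ Branch P v l ∧ (P.code l ≠ .halt → v (.e l) = 0) ∧
    v .B * inL P (fun k => v (.I k)) (fun k => v (.Ip k)) (fun k => v (.Iz k)) l +
        ind P P.start l =
      v (.I l) + v (.e l) * v .BT

/-- The conditions on the columns of a register. -/
def SysReg (a : Fin n → ℕ) (v : Val P) (r : Reg P) : Prop :=
  Sub (v (.X r)) (v .MASK) ∧ Sub (v (.P r)) (v .ONE) ∧ v (.P r) + v (.Q r) = v .ONE ∧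
    v (.PX r) + v (.P r) = v .pw * v (.P r) ∧ Sub (v (.X r)) (v (.PX r)) ∧
    v (.HP r) = v .pw * v (.P r) ∧ v (.XS r) = v (.X r) + v .MASK ∧
    Sub (v (.HP r)) (v (.XS r)) ∧
    v .B * (v (.X r) + incR P (fun k => v (.I k)) r) + initR P a r =
      v .B * decR P (fun k => v (.Ip k)) r + v (.X r) + v (.F r) * v .BT

/-- The whole system. -/
def Sys (a : Fin n → ℕ) (v : Val P) : Prop :=
  SysBase P a v ∧ (∑ l, v (.I l) = v .ONE ∧ ∑ l, v (.e l) = 1) ∧ (∀ l, SysLab P v l) ∧
    ∀ r, SysReg P a v r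

/-- The number of bits of a digit. -/
abbrev size (a : Fin n → ℕ) (T : ℕ) : ℕ := (∑ i, a i) + T + (P.labels + 2)

/-- The unknowns as functions of the configurations `c t`, `t ≤ T`. -/
def can (a : Fin n → ℕ) (T : ℕ) (c : ℕ → P.Config) : Val P :=
  let H := size P a T
  let col := pack (2 ^ (H + 1)) T
  fun
  | .T => T
  | .uno => 1
  | .h => H
  | .h1 => H + 1
  | .eT => (H + 1) * T
  | .pw => 2 ^ H
  | .B => 2 ^ (H + 1)
  | .BT => (2 ^ (H + 1)) ^ T
  | .ONE => col fun _ => 1
  | .MASK => col fun _ => 2 ^ H - 1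
  | .X r => col fun t => (c t).2 r
  | .P r => col fun t => pos P (c t).2 r
  | .Q r => col fun t => 1 - pos P (c t).2 r
  | .PX r => col fun t => (2 ^ H - 1) * pos P (c t).2 r
  | .HP r => col fun t => 2 ^ H * pos P (c t).2 r
  | .XS r => col fun t => (c t).2 r + (2 ^ H - 1)
  | .F r => (c T).2 r
  | .I l => col fun t => ind P (c t).1 l
  | .Ip l => col fun t => ipOf P (c t) l
  | .Iz l => col fun t => izOf P (c t) l
  | .e l => ind P (c T).1 l

section Poly

variable {α : Type}

theorem sf_imp (c : Prop) {S : (α → ℕ) → Prop} (h : SF S) : SF fun a => c → S a := by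
  by_cases hc : c
  · exact h.congr fun a => ⟨fun h _ => h, fun h => h hc⟩
  · exact sf_true.congr fun a => by simp [hc]

/-- The evaluation of an integer polynomial as an additive map. -/
noncomputable def evHom (a : α → ℕ) : MvPolynomial α ℤ →+ ℤ :=
  (MvPolynomial.eval fun i => (a i : ℤ)).toAddMonoidHom

theorem evHom_apply (a : α → ℕ) (p : MvPolynomial α ℤ) : evHom a p = ev a p := rfl

end Poly

/-- The variables: parameters and unknowns. -/
abbrev AV : Type := Fin n ⊕ Var (n + P.extra) P.labels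

/-- The parameters of a valuation. -/
abbrev par (w : AV P → ℕ) : Fin n → ℕ := fun i => w (.inl i)

/-- The unknowns of a valuation. -/
abbrev unk (w : AV P → ℕ) : Val P := fun x => w (.inr x)

/-- An unknown as a polynomial. -/
noncomputable abbrev V (x : Var (n + P.extra) P.labels) : MvPolynomial (AV P) ℤ :=
  MvPolynomial.X (Sum.inr x)

theorem ev_inL (w : AV P → ℕ) (J Jp Jz : Lab P → Var (n + P.extra) P.labels) (l : Lab P) :
    ev w (inL P (fun k => V P (J k)) (fun k => V P (Jp k)) (fun k => V P (Jz k)) l) =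
      (inL P (fun k => unk P w (J k)) (fun k => unk P w (Jp k)) (fun k => unk P w (Jz k)) l : ℕ) := by
  rw [← evHom_apply, map_inL,
    show ((inL P (fun k => unk P w (J k)) (fun k => unk P w (Jp k))
      (fun k => unk P w (Jz k)) l : ℕ) : ℤ) = _ from map_inL P (Nat.castAddMonoidHom ℤ) _ _ _ l]
  simp [evHom_apply, ev]

theorem ev_incR (w : AV P → ℕ) (J : Lab P → Var (n + P.extra) P.labels) (r : Reg P) :
    ev w (incR P (fun k => V P (J k)) r) = (incR P (fun k => unk P w (J k)) r : ℕ) := by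
  rw [← evHom_apply, map_incR,
    show ((incR P (fun k => unk P w (J k)) r : ℕ) : ℤ) = _ from
      map_incR P (Nat.castAddMonoidHom ℤ) _ r]
  simp [evHom_apply, ev]

theorem ev_decR (w : AV P → ℕ) (J : Lab P → Var (n + P.extra) P.labels) (r : Reg P) :
    ev w (decR P (fun k => V P (J k)) r) = (decR P (fun k => unk P w (J k)) r : ℕ) := by
  rw [← evHom_apply, map_decR,
    show ((decR P (fun k => unk P w (J k)) r : ℕ) : ℤ) = _ from
      map_decR P (Nat.castAddMonoidHom ℤ) _ r]
  simp [evHom_apply, ev]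

theorem ev_initR (w : AV P → ℕ) (r : Reg P) :
    ev w (Fin.append (fun i => MvPolynomial.X (Sum.inl i)) 0 r : MvPolynomial (AV P) ℤ) =
      (initR P (par P w) r : ℕ) := by
  refine Fin.addCases (fun i => ?_) (fun i => ?_) r <;> simp [ev, initR]

theorem sf_base : SF fun w : AV P → ℕ => SysBase P (par P w) (unk P w) :=
  ((sf_eq (V P .uno) 1).and <|
    (sf_eq (V P .h)
      ((∑ i, MvPolynomial.X (Sum.inl i)) + V P .T + C ((P.labels + 2 : ℕ) : ℤ))).and <|
    (sf_eq (V P .h1) (V P .h + 1)).and <| (sf_eq (V P .eT) (V P .h1 * V P .T)).and <|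
    (sf_exp (.inr .uno) (.inr .h) (.inr .pw)).and <|
    (sf_exp (.inr .uno) (.inr .h1) (.inr .B)).and <|
    (sf_exp (.inr .uno) (.inr .eT) (.inr .BT)).and <|
    (sf_eq (V P .B * V P .ONE + 1) (V P .BT + V P .ONE)).and <|
    sf_eq (V P .MASK + V P .ONE) (V P .pw * V P .ONE)).congr fun w => by
      simp only [ev, SysBase, V, par, unk, map_add, map_mul, map_one, map_sum, eval_X, eval_C]
      norm_cast

theorem sf_branch (l : Lab P) : SF fun w : AV P → ℕ => Branch P (unk P w) l := by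
  have z : ∀ x, SF fun w : AV P → ℕ => unk P w x = 0 := fun x =>
    (sf_eq (V P x) 0).congr fun w => by simp [ev]
  unfold Branch
  cases P.code l with
  | halt => exact (z _).and ((z _).and (z _))
  | inc r m => exact (z _).and (z _)
  | dec r p q =>
    exact ((sf_eq (V P (.Ip l) + V P (.Iz l)) (V P (.I l))).congr fun w => by
      simp only [ev, V, unk, map_add, eval_X]; norm_cast).and
        ((sf_sub _ _).and (sf_sub _ _))

theorem sf_lab (l : Lab P) : SF fun w : AV P → ℕ => SysLab P (unk P w) l := by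
  refine (sf_sub _ _).and <| (sf_branch P l).and <|
    (sf_imp _ ((sf_eq (V P (.e l)) 0).congr fun w => by simp [ev])).and ?_
  refine (sf_eq (V P .B * inL P (fun k => V P (.I k)) (fun k => V P (.Ip k))
      (fun k => V P (.Iz k)) l + C (ind P P.start l : ℤ))
    (V P (.I l) + V P (.e l) * V P .BT)).congr fun w => ?_
  have := ev_inL P w .I .Ip .Iz l
  simp only [ev, V, unk, map_add, map_mul, eval_X, eval_C] at this ⊢
  rw [this]
  norm_cast

theorem sf_reg (r : Reg P) : SF fun w : AV P → ℕ => SysReg P (par P w) (unk P w) r := by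
  have e : ∀ x y z, SF fun w : AV P → ℕ => unk P w x + unk P w y = unk P w z := fun x y z =>
    (sf_eq (V P x + V P y) (V P z)).congr fun w => by
      simp only [ev, V, unk, map_add, eval_X]; norm_cast
  refine (sf_sub _ _).and <| (sf_sub _ _).and <| (e _ _ _).and <|
    ((sf_eq (V P (.PX r) + V P (.P r)) (V P .pw * V P (.P r))).congr fun w => by
      simp only [ev, V, unk, map_add, map_mul, eval_X]; norm_cast).and <|
    (sf_sub _ _).and <|
    ((sf_eq (V P (.HP r)) (V P .pw * V P (.P r))).congr fun w => by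
      simp only [ev, V, unk, map_mul, eval_X]; norm_cast).and <|
    ((sf_eq (V P (.XS r)) (V P (.X r) + V P .MASK)).congr fun w => by
      simp only [ev, V, unk, map_add, eval_X]; norm_cast).and <| (sf_sub _ _).and ?_
  refine (sf_eq (V P .B * (V P (.X r) + incR P (fun k => V P (.I k)) r) +
      Fin.append (fun i => MvPolynomial.X (Sum.inl i)) 0 r)
    (V P .B * decR P (fun k => V P (.Ip k)) r + V P (.X r) +
      V P (.F r) * V P .BT)).congr fun w => ?_
  have h1 := ev_incR P w .I r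
  have h2 := ev_decR P w .Ip r
  have h3 := ev_initR P w r
  simp only [ev, V, unk, map_add, map_mul, eval_X] at h1 h2 h3 ⊢
  rw [h1, h2, h3]
  norm_cast

theorem sf_sys : SF fun w : AV P → ℕ => Sys P (par P w) (unk P w) :=
  (sf_base P).and <|
    (((sf_eq (∑ l, V P (.I l)) (V P .ONE)).congr fun w => by
      simp only [ev, V, unk, map_sum, eval_X]; norm_cast).and
      ((sf_eq (∑ l, V P (.e l)) 1).congr fun w => by
      simp only [ev, V, unk, map_sum, map_one, eval_X]; norm_cast)).and <|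
    (sf_forall (fun l w => SysLab P (unk P w) l) (sf_lab P)).and
      (sf_forall (fun r w => SysReg P (par P w) (unk P w) r) (sf_reg P))

end Vale.Agent.P345.Encode
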